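import Vale.Agent.P166.Rsb.Assemble
import Vale.Agent.P166.Rsb.Explicit

/-!
# The limiting pressure of orthogonally invariant Ising spin glasses

At every positive inverse temperature and for every limiting spectral law the pressure converges in
mean and in `L¹` to an explicit variational formula.
-/

namespace Vale.Agent.Results.P166.Formula

open MeasureTheory Filter Vale.Agent.P166 Vale.Agent.P166.Rsb

/-- The variational formula for the limiting pressure. -/
theorem result :
    (∀ N : ℕ, ∃ m : Measure (Fin N → Fin N → ℝ), IsHaarOrth m) ∧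
    (∀ (k : ℕ) (q : ℕ → ℝ), Vale.Agent.P157.Rsb.IsPath k q →
      BddAbove (Vale.Agent.P157.Cube2.spinObj k q '' {r | Vale.Agent.P157.Cube2.IsVar k r})) ∧
    ∀ β : ℝ, 0 < β → ∀ μ : Measure ℝ, IsProbabilityMeasure μ → ∀ b : ℝ, IsTopEdge μ b →
      (∃ lo, μ (Set.Iio lo) = 0) →
      (∀ x : ℝ, 0 < x →
        BddBelow ((fun z => (z * x - 1 - Real.log x - ∫ t, Real.log (z - t) ∂μ) / 2) '' Set.Ioi b)) ∧
      ∃ l, IsGLB (fieldValues μ b β) l ∧ IsGLB {x | ∃ (k : ℕ) (q : ℕ → ℝ), Vale.Agent.P157.Rsb.IsPath k q ∧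
          x = Vale.Agent.P157.Cube2.spinSup k q + eng μ b β k q} l ∧
        ∀ lam : ∀ N, Fin N → ℝ, Admissible μ b lam →
          ∀ m : ∀ N, Measure (Fin N → Fin N → ℝ), (∀ N, IsHaarOrth (m N)) →
            Tendsto (fun N => ∫ U, press β (lam N) U ∂m N) atTop (nhds l) ∧
            Tendsto (fun N => ∫⁻ U, ENNReal.ofReal |press β (lam N) U - l| ∂m N) atTop (nhds 0) :=
  formula_explicit_of upperStmt lowerStmt approxStmt

end Vale.Agent.Results.P166.Formula
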